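import Vale.Agent.P153.App.Stm
import Vale.Agent.P153.Wick.Stm

/-! P153, module App: lower bound for the variance. -/

open Set

noncomputable section
namespace Vale.Agent.P153.App

theorem var_dep {E E' : V → V → Prop} {x : V} {n N : ℕ}
    (h : ∀ a ∈ ann x n N, ∀ b ∈ ann x n N, E a b → E' a b) (hc : Circ E x n N) :
    Circ E' x n N := by
  obtain ⟨m, w, h1, h2, h3, h4⟩ := hc
  exact ⟨m, w, h1, fun t ht => ⟨(h2 t ht).1, h _ (h3 t ht.le) _ (h3 _ ht) (h2 t ht).2⟩, h3, h4⟩

/-- Circuits three levels above and below the band. -/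
def A2 : Prop := ∃ (C : ℕ) (c : ℝ), 1 ≤ C ∧ 0 < c ∧ ∀ (N : ℕ) (x : V) (U : Set V) (k : ℤ), 1 ≤ N →
  U.Finite → hex x (C * N) ⊆ U →
  c ≤ Pr (free U k) {H | Circ (star (ge (k + 3) H)) x N (C * N)} ∧
    c ≤ Pr (free U k) {H | Circ (star (le (k - 2) H)) x N (C * N)}

theorem var_obd {U : Set V} : obd (U \ ibd U) ⊆ ibd U := by
  rintro y ⟨h1, z, h2, h3⟩
  have : y ∈ U := by
    by_contra h
    exact h2.2 ⟨h2.1, y, h, h3.symm⟩
  by_contra h
  exact h1 ⟨this, h⟩

theorem a2 (h1 : A1) (h2 : Push) : A2 := by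
  obtain ⟨C, c, hC, hc, h1⟩ := h1
  obtain ⟨D, d, hD, hd, h2⟩ := h2
  refine ⟨D * C, c * d, Nat.mul_pos hD hC, mul_pos hc hd, fun N x U k hN hU hx => ?_⟩
  have hN' : 1 ≤ C * N := Nat.mul_pos hC hN
  have e : C * N ≤ D * C * N := by
    rw [mul_assoc]; exact Nat.le_mul_of_pos_left _ hD
  obtain ⟨p1, p2, -, -⟩ := h2 (C * N) x U k hN' hU (by rwa [← mul_assoc])
  have hB : (U \ ibd U).Finite := hU.subset sdiff_subset
  have fin : ∀ Eb H, (Rch (U \ ibd U)ᶜ Eb H)ᶜ.Finite := fun Eb H =>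
    hB.subset (compl_Rch_subset _ Eb H)
  constructor
  · refine le_trans (mul_le_mul_of_nonneg_left p1 hc.le) (le_trans (explore_ge
      (E' := {H | Circ (star (ge (k + 3) H)) x N (C * N)}) (U \ ibd U)ᶜ (eLe k) ?_ ?_)
      (Pr_mono fun H _ hH => hH.2.mono (fun _ _ => id) le_rfl e))
    · intro H _ K _ h _ hH
      rw [mem_ofPred_eq, h]; exact hH
    · intro H hH hE
      have hs : hex x (C * N) ⊆ (Rch (U \ ibd U)ᶜ (eLe k) H)ᶜ := hE.symm.subset_compl_right
      refine le_trans (h1 N x _ (k + 1) hN (fin _ H) hs).1 (le_of_eq (Eq.symm ?_))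
      refine cell_eLe (good_free hU k).1 hB (freeIn_free U k) hH (fun y hy => ?_) fun K _ K' _ he => ?_
      · have := hH.2.2 y (var_obd hy); omega
      · have e' : ∀ a ∈ ann x N (C * N), K a = K' a := fun a ha => he a (hs (ann_subset_hex ha))
        refine le_antisymm (ind_mono (var_dep fun a ha b hb => ?_))
          (ind_mono (var_dep fun a ha b hb => ?_)) <;>
        · simp only [star, ge, mem_ofPred_eq, e' a ha, e' b hb]
          omega
  · refine le_trans (mul_le_mul_of_nonneg_left p2 hc.le) (le_trans (explore_ge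
      (E' := {H | Circ (star (le (k - 2) H)) x N (C * N)}) (U \ ibd U)ᶜ (eGe (k + 1)) ?_ ?_)
      (Pr_mono fun H _ hH => hH.2.mono (fun _ _ => id) le_rfl e))
    · intro H _ K _ h _ hH
      rw [mem_ofPred_eq, h]; exact hH
    · intro H hH hE
      have hs : hex x (C * N) ⊆ (Rch (U \ ibd U)ᶜ (eGe (k + 1)) H)ᶜ := hE.symm.subset_compl_right
      refine le_trans (h1 N x _ (k + 1 - 2) hN (fin _ H) hs).2 (le_of_eq (Eq.symm ?_))
      refine cell_eGe (good_free hU k).1 hB (freeIn_free U k) hH (fun y hy => ?_) fun K _ K' _ he => ?_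
      · have := hH.2.2 y (var_obd hy); omega
      · have e' : ∀ a ∈ ann x N (C * N), K a = K' a := fun a ha => he a (hs (ann_subset_hex ha))
        refine le_antisymm (ind_mono (var_dep fun a ha b hb => ?_))
          (ind_mono (var_dep fun a ha b hb => ?_)) <;>
        · simp only [star, le, mem_ofPred_eq, e' a ha, e' b hb]
          omega

theorem var_lin_congr {a : V →₀ ℝ} {H K : Cfg} (h : ∀ y, a y ≠ 0 → H y = K y) :
    lin a H = lin a K :=
  Finset.sum_congr rfl fun y hy => by simp only [h y (Finsupp.mem_support_iff.1 hy)]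

/-- The mean under a band. -/
theorem var_mean {U : Set V} (hU : U.Finite) (k : ℤ) {a : V →₀ ℝ} (h : ∀ y, a y ≠ 0 → y ∈ U) :
    Ex (free U k) (lin a) = (k + 1 / 2) * Wick.tot a := by
  have h1 := Ex_free_flip (f := lin a) hU k (2 * k + 1) fun H K hK =>
    var_lin_congr fun y hy => hK y (h y hy)
  have h2 : ∀ H : Cfg, lin a (fun x => 2 * k + 1 - H x) = (2 * k + 1) * Wick.tot a - lin a H := by
    intro H
    simp only [lin, Wick.tot, Finsupp.sum, Finset.mul_sum, ← Finset.sum_sub_distrib]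
    refine Finset.sum_congr rfl fun y _ => ?_
    push_cast
    ring
  have h3 : 2 * k + 1 - k - 1 = k := by ring
  simp only [h2, h3] at h1
  rw [Ex_sub, Ex_const (good_free hU k)] at h1
  linarith

theorem var_cell {S E : Set Cfg} (hS : Good S) (St : Set V) (Eb : ℤ → ℤ → Prop) (f : Cfg → ℝ)
    (m u : ℝ) (hE : ∀ H K, Rch St Eb K = Rch St Eb H → (K ∈ E ↔ H ∈ E))
    (h : ∀ H ∈ S, H ∈ E → Ex (cell S St Eb H) f = u) :
    (u - m) ^ 2 * Pr S E ≤ Ex S fun H => (f H - m) ^ 2 := by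
  have h1 := tower_explore (S := S) St Eb (fun H => (f H - m) ^ 2) (E.indicator 1)
    fun H _ K _ e _ => le_antisymm (ind_mono (hE H K e).1) (ind_mono (hE H K e).2)
  rw [Pr, ← Ex_mul_left]
  refine le_trans (Ex_mono fun H hH => ?_) (h1.ge.trans (Ex_mono fun H _ => ?_))
  · by_cases hH' : H ∈ E
    · have := Ex_sq_le (cell S St Eb H) fun K => f K - m
      rw [Ex_sub, Ex_const (good_cell hS.1 hH), h H hH hH'] at this
      simpa [hH'] using this
    · simp [hH']
  · exact mul_le_of_le_one_left (sq_nonneg _) (ind_le_one _ _)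

theorem l_var (h : A2) : Wick.L_var := by
  obtain ⟨C, c, hC, hc, h⟩ := h
  refine ⟨2 * C + 1, fun _ => ⟨c, hc, fun F S x N a hF hN hx _ a0 ha => ?_⟩⟩
  have hF' := hF.1
  have g := good_dob hF' S
  have e : (2 * C + 1) * N = C * (2 * N) + N := by ring
  have hx' : hex x (C * (2 * N)) ⊆ F := (hex_mono (by omega)).trans hx
  have q1 := (h (2 * N) x F (-1) (by omega) hF' hx').1
  have q2 := (h (2 * N) x F 1 (by omega) hF' hx').2
  have bd : ∀ H ∈ dob F S, ∀ y, y ∉ F → 0 ≤ H y ∧ H y ≤ 1 := fun H hH y hy => by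
    by_cases hs : y ∈ S
    · rw [(hH.2 y hy).1 hs]; omega
    · rw [(hH.2 y hy).2 hs]; omega
  have s1 : SD id (free F (-1)) (dob F S) := (sd_flat_free hF' (-1)).2.trans
    (sd_H (good_flat hF' _) g allLip_flat allLip_dob fun H hH K hK =>
      ⟨⟨hH.1.inf hK.1, fun y hy => by
        have := bd K hK y hy
        rw [Pi.inf_apply, hH.2 y hy]; omega⟩,
      hH.1.sup hK.1, fun y hy => by
        have := bd K hK y hy
        have e : (H ⊔ K) y = K y := by rw [Pi.sup_apply, hH.2 y hy]; omega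
        rw [e]; exact hK.2 y hy⟩)
  have s2 : SD id (dob F S) (free F 1) :=
    (sd_H g (good_flat hF' 1) allLip_dob allLip_flat fun H hH K hK =>
      ⟨⟨hH.1.inf hK.1, fun y hy => by
        have := bd H hH y hy
        have e : (H ⊓ K) y = H y := by rw [Pi.inf_apply, hK.2 y hy]; omega
        rw [e]; exact hH.2 y hy⟩,
      hH.1.sup hK.1, fun y hy => by
        have := bd H hH y hy
        rw [Pi.sup_apply, hK.2 y hy]; omega⟩).trans (sd_flat_free hF' 1).1
  have far : ∀ y, y ∉ F → C * (2 * N) < nrm (y - x) := fun y hy =>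
    not_le.1 fun h' => hy (hx' (mem_hex.2 h'))
  have near : ∀ y ∈ hex x N, nrm (y - x) < 2 * N := fun y hy => by
    have := mem_hex.1 hy; omega
  have r1 : c ≤ Pr (dob F S) {H | Disjoint (Rch Fᶜ (eLe 0) H) (hex x N)} := by
    refine q1.trans ((s1.inc fun H K _ _ hHK hH => hH.mono (star_mono fun y hy =>
      le_trans hy (hHK y)) le_rfl le_rfl).trans (Pr_mono fun H hH hc => ?_))
    refine disjoint_left.2 fun y ⟨z, hz, hzy⟩ hy => ?_
    exact Circ.ge_block (k := 0) hH.1 hc (near y hy) (far z hz) (hzy.symm (star_symm (le 0 H)))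
  have r2 : c ≤ Pr (dob F S) {H | Disjoint (Rch Fᶜ (eGe 1) H) (hex x N)} := by
    refine q2.trans ((s2.dec fun H K _ _ hHK hH => hH.mono (star_mono fun y hy =>
      le_trans (hHK y) hy) le_rfl le_rfl).trans (Pr_mono fun H hH hc => ?_))
    refine disjoint_left.2 fun y ⟨z, hz, hzy⟩ hy => ?_
    have hc' : Circ (star (le (-1) H)) x (2 * N) (C * (2 * N)) := hc
    have hzy' : Conn (star (ge (-1 + 2) H)) univ z y := hzy
    exact hc'.le_block hH.1 (near y hy) (far z hz) (hzy'.symm (star_symm _))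
  set m := Ex (dob F S) (lin a) with hm
  have fin : ∀ Eb H, (Rch Fᶜ Eb H)ᶜ.Finite := fun Eb H => hF'.subset (compl_Rch_subset _ Eb H)
  have v1 := var_cell (E := {H | Disjoint (Rch Fᶜ (eLe 0) H) (hex x N)}) g Fᶜ (eLe 0) (lin a) m
    (3 / 2 * Wick.tot a) (fun H K e => by simp only [mem_ofPred_eq, e]) fun H hH hE => by
      have hs : ∀ y, a y ≠ 0 → y ∈ (Rch Fᶜ (eLe 0) H)ᶜ := fun y hy =>
        hE.symm.subset_compl_right (ha y hy)
      rw [cell_eLe (f' := lin a) g.1 hF' (freeIn_dob F S) hH (fun y hy => (bd H hH y hy.1).2)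
        fun K _ K' _ he => var_lin_congr fun y hy => he y (hs y hy), var_mean (fin _ H) _ hs]
      norm_num
  have v2 := var_cell (E := {H | Disjoint (Rch Fᶜ (eGe 1) H) (hex x N)}) g Fᶜ (eGe 1) (lin a) m
    (-1 / 2 * Wick.tot a) (fun H K e => by simp only [mem_ofPred_eq, e]) fun H hH hE => by
      have hs : ∀ y, a y ≠ 0 → y ∈ (Rch Fᶜ (eGe 1) H)ᶜ := fun y hy =>
        hE.symm.subset_compl_right (ha y hy)
      rw [cell_eGe (f' := lin a) g.1 hF' (freeIn_dob F S) hH (fun y hy => (bd H hH y hy.1).1)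
        fun K _ K' _ he => var_lin_congr fun y hy => he y (hs y hy), var_mean (fin _ H) _ hs]
      norm_num
  have ev : Ex (dob F S) (fun H => (lin a H - m) ^ 2) =
      Ex (dob F S) (fun H => lin a H ^ 2) - m ^ 2 := by
    have : ∀ H, (lin a H - m) ^ 2 = lin a H ^ 2 - 2 * m * lin a H + m ^ 2 := fun H => by ring
    simp only [this]
    rw [Ex_add, Ex_sub, Ex_mul_left, Ex_const g, ← hm]
    ring
  rw [← ev]
  have w1 := mul_le_mul_of_nonneg_left r1 (sq_nonneg (3 / 2 * Wick.tot a - m))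
  have w2 := mul_le_mul_of_nonneg_left r2 (sq_nonneg (-1 / 2 * Wick.tot a - m))
  nlinarith [mul_nonneg hc.le (sq_nonneg (Wick.tot a / 2 - m))]

end Vale.Agent.P153.App
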